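import Vale.Agent.P032.Cert.Sound

/-!
P032: every admissible clause is true, and a checked certificate refutes its configuration.
-/

namespace Vale.Agent.P032.Cert

open Set Filter Topology Metric Complex ComplexConjugate

variable {C : Cover} {X : Ctx} {τ : Bool → ℝ}

lemma Pt.add_sub_add_right (p q r : Pt) : (p.add r).sub (q.add r) = p.sub q := by
  cases p; cases q; cases r; simp [Pt.add, Pt.sub]

lemma val_at (i : Fin 7) (j : ℕ) : (X.at i j).val = cen i + (X.pt j).val := Pt.val_add _ _

lemma dist_one_of_unit {p q : Pt} (h : (p.sub q).unit = true) : dist p.val q.val = 1 := by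
  rw [dist_eq_norm, ← Pt.val_sub, Pt.norm_of_unit h]

lemma cases_reason_five (hg : Good C X τ) (hy : Hyp C X τ) (h5 : X.root = .five) {j : ℕ}
    {s : Bool} {x : Fin 5} (hj : (X.pt j).unit = true)
    (hn : ∀ c, c ≠ x → ¬ AtSample C X τ 0 j s c) : False := by
  refine false_of_single (dist_path 0 s (τ s) hj) ?_ hn
  rw [cen_zero, hy.root_K, h5]; rfl

lemma anti_sound (hg : Good C X τ) {i : Fin 7} {j : ℕ} {s : Bool} {x : Fin 5}
    (hi : ¬ C.Inside (cen i)) (hj : (X.pt j).unit = true)
    (h : ∀ c, c ≠ x → cen i ∉ C.K c ∨ ∃ j', (X.pt j).sameLine (X.pt j') = true ∧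
      AtSample C X τ i j' s c) : False := by
  refine C.false_of_excluded (Pt.norm_of_unit hj) (fun hU => hi ⟨x, hU⟩) (t₀ := dir s * τ s)
    fun c hc => ?_
  rcases h c hc with h' | ⟨j', hl, h'⟩
  · exact Or.inl h'
  · exact Or.inr (sample_line hg hl h')

lemma exact_sound (hg : Good C X τ) {i i' : Fin 7} {j j' : ℕ} {s : Bool} {c : Fin 5}
    (hok : ok X (.exact i j i' j' s c) = true) (h : AtSample C X τ i j s c)
    (h' : AtSample C X τ i' j' s c) : False := by
  simp only [ok, Bool.and_eq_true, Bool.or_eq_true, decide_eq_true_eq, Bool.not_eq_true',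
    decide_eq_false_iff_not] at hok
  obtain ⟨⟨hu, hij⟩, hturn⟩ := hok
  set θ : ℝ := dir s * τ s with hθ
  set b := (X.pt j).val with hb
  set e : ℂ := exp ((θ : ℂ) * I) with he
  have hee : e * conj e = 1 := by
    rw [Complex.mul_conj, Complex.normSq_eq_norm_sq, he, norm_exp_ofReal_mul_I]; simp
  have hD := Pt.norm_of_unit hu
  rw [Pt.val_sub, val_at, val_at] at hD
  have key : (I * b * e * conj (orbit (cen i) b θ - orbit (cen i') (X.pt j').val θ)).re ≠ 0 ∧
      ‖orbit (cen i) b θ - orbit (cen i') (X.pt j').val θ‖ = 1 := by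
    rcases hij with rfl | rfl
    · have e1 : orbit (cen i) b θ - orbit (cen i) (X.pt j').val θ =
          -((cen i + (X.pt j').val - (cen i + b)) * e) := by
        simp only [orbit, he]; ring
      refine ⟨?_, ?_⟩
      · have := turn_ne hturn
        rw [Pt.val_sub, val_at, val_at] at this
        rw [e1, map_neg, map_mul, show I * b * e * -(conj (cen i + (X.pt j').val - (cen i + b)) *
          conj e) = -(I * b * conj (cen i + (X.pt j').val - (cen i + b))) * (e * conj e) by ring,
          hee, mul_one, Complex.neg_re]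
        exact neg_ne_zero.2 this
      · rw [e1, norm_neg, norm_mul, hD, one_mul, he, norm_exp_ofReal_mul_I]
    · have e1 : orbit (cen i) b θ - orbit (cen i') b θ = -(cen i' - cen i) := by
        simp only [orbit]; ring
      refine ⟨?_, ?_⟩
      · rw [e1, map_neg, mul_neg, Complex.neg_re, neg_ne_zero]
        refine hg.ne i i' j s ?_
        rwa [Ctx.at, Ctx.at, Pt.add_sub_add_right] at hturn
      · rw [e1, norm_neg, ← hD]; ring_nf
  refine C.cross_arc (continuous_orbit (cen i) b) (hasDerivAt_dist_sq (hasDerivAt_orbit _ b θ))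
    (mul_ne_zero two_ne_zero key.1) ?_ (sample_eventually hg h) h'
  rw [dist_eq_norm]; exact key.2

lemma rates_sound {i i' : Fin 7} {j j' : ℕ} {s s' : Bool} {c : Fin 5}
    (hok : ok X (.rates i j s i' j' s' c) = true) (hA : AllNear C X i' j' s' c)
    (hE : SomeNear C X i j s c) : False := by
  simp only [ok, Bool.and_eq_true, Bool.not_eq_true', decide_eq_false_iff_not, beq_iff_eq,
    decide_eq_decide] at hok
  obtain ⟨⟨⟨hu, hg1⟩, hg2⟩, hside⟩ := hok
  set g := turn (X.pt j) ((X.at i' j').sub (X.at i j)) with hgdef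
  set g' := turn (X.pt j') ((X.at i' j').sub (X.at i j)) with hgdef'
  have eD : ((X.at i' j').sub (X.at i j)).val =
      cen i' + (X.pt j').val - (cen i + (X.pt j).val) := by rw [Pt.val_sub, val_at, val_at]
  have hD : ‖cen i' + (X.pt j').val - (cen i + (X.pt j).val)‖ = 1 := by
    rw [← eD, Pt.norm_of_unit hu]
  set c₁ := (I * (X.pt j).val * conj (cen i' + (X.pt j').val - (cen i + (X.pt j).val))).re with e₁
  set c₂ := (I * (X.pt j').val * conj (cen i' + (X.pt j').val - (cen i + (X.pt j).val))).re with e₂
  have n₁ : c₁ ≠ 0 := by rw [e₁, ← eD]; exact turn_ne hg1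
  have n₂ : c₂ ≠ 0 := by rw [e₂, ← eD]; exact turn_ne hg2
  have t₁ := turn_sign (X.pt j) ((X.at i' j').sub (X.at i j))
  have t₂ := turn_sign (X.pt j') ((X.at i' j').sub (X.at i j))
  rw [← hgdef, eD, ← e₁] at t₁
  rw [← hgdef', eD, ← e₂] at t₂
  have hsign : dir s * (c₁ / c₂) = dir s' * |c₁ / c₂| := by
    rcases sign33_cases _ _ with a | a | a <;> try exact absurd a hg1
    all_goals rcases sign33_cases _ _ with a' | a' | a' <;> try exact absurd a' hg2
    all_goals
      have ha : g = _ := a
      have ha' : g' = _ := a'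
      rw [ha, ha'] at hside
    · have hs : s = s' := hside.2 rfl
      rw [hs, abs_of_pos (div_pos (t₁.1 ha) (t₂.1 ha'))]
    · have hs : s ≠ s' := fun hh => by simpa using hside.1 hh
      rw [abs_of_neg (div_neg_of_pos_of_neg (t₁.1 ha) (t₂.2 ha'))]
      cases s <;> cases s' <;> simp_all [dir]
    · have hs : s ≠ s' := fun hh => by simpa using hside.1 hh
      rw [abs_of_neg (div_neg_of_neg_of_pos (t₁.2 ha) (t₂.1 ha'))]
      cases s <;> cases s' <;> simp_all [dir]
    · have hs : s = s' := hside.2 rfl
      rw [hs, abs_of_pos (div_pos_of_neg_of_neg (t₁.2 ha) (t₂.2 ha'))]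
  have hk : 0 < |c₁ / c₂| := abs_pos.2 (div_ne_zero n₁ n₂)
  have hA' : ∀ᶠ t in 𝓝[>] (0 : ℝ),
      orbit (cen i') (X.pt j').val (dir s * (c₁ / c₂) * t) ∈ C.K c := by
    have ht : Tendsto (fun t => |c₁ / c₂| * t) (𝓝[>] 0) (𝓝[>] 0) := by
      refine tendsto_nhdsWithin_iff.2 ⟨?_, ?_⟩
      · simpa using ((continuous_const_mul |c₁ / c₂|).tendsto (0 : ℝ)).mono_left nhdsWithin_le_nhds
      · filter_upwards [self_mem_nhdsWithin] with t ht using mul_pos hk ht
    filter_upwards [ht.eventually hA] with t ht'
    rwa [path, ← mul_assoc, ← hsign] at ht'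
  refine hE ((C.eventually_notMem_of_rates hD e₁ e₂ n₁ n₂ (dir_ne s) hA').mono fun t ht hu => ?_)
  exact ht hu.self_of_nhds

/-- An admissible clause is true. -/
theorem clause_true (hg : Good C X τ) (hy : Hyp C X τ) (r : Reason) (hr : ok X r = true) :
    ∃ l ∈ clause X r, Holds (Val C X τ) l := by
  by_contra hn
  push Not at hn
  cases r with
  | given k =>
    obtain ⟨l, hl, h⟩ := hy.given k (of_decide_eq_true hr)
    exact hn l hl h
  | some i j s =>
    simp [clause, colours, holds_pos, val_vS] at hn
    obtain ⟨d, hd⟩ := C.exists_mem_K (path X i j s (τ s))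
    obtain ⟨h0, h1, h2, h3, h4⟩ := hn
    fin_cases d <;> contradiction
  | allSample i j s c =>
    simp [clause, holds_pos, holds_neg, val_vA, val_vS] at hn
    exact hn.2 (hg.all i j s c hn.1)
  | sampleSome i j s c =>
    simp [clause, holds_pos, holds_neg, val_vE, val_vS] at hn
    exact hn.2 (hg.some i j s c hn.1)
  | only i j s c =>
    simp only [clause, List.forall_mem_cons, List.forall_mem_map, List.mem_filter, and_imp,
      holds_pos, val_vA, val_vE] at hn
    refine hn.1 (all_or_some fun d hd => hn.2 d ?_ (by simpa using hd))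
    fin_cases d <;> simp [colours]
  | limit i j s c n =>
    simp [clause, holds_pos, holds_neg, val_vE, val_vM] at hn
    have e : cen i + (X.pt j).val = cen n := by
      rw [← val_at, Pt.same_iff.1 hr]; rfl
    exact hn.2 (e ▸ limit_mem hn.1)
  | openAll i j s c n =>
    simp [clause, holds_pos, holds_neg, val_vA, val_vU] at hn
    have e : cen i + (X.pt j).val = cen n := by
      rw [← val_at, Pt.same_iff.1 hr]; rfl
    exact hn.2 ((tendsto_dir s).eventually (C.eventually_mem_of_U (e.symm ▸ hn.1)))
  | openFar i j s c n =>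
    simp [clause, holds_neg, val_vE, val_vU] at hn
    have hd := dist_one_of_unit (show ((X.at i j).sub (ctr n)).unit = true from hr)
    rw [val_at, dist_comm] at hd
    exact C.dist_ne_one hn.1 (limit_mem hn.2) hd
  | rootM c =>
    have := hy.root_K c
    cases hc : X.root.has c <;> rw [hc] at this <;>
      simp [clause, hc, holds_pos, holds_neg, val_vM, cen_zero] at hn this <;> contradiction
  | rootU c =>
    simp [clause, holds_neg, val_vU, cen_zero] at hn
    exact hy.root_not ⟨c, hn⟩
  | kinds n =>
    simp [clause, holds_pos, val_vN, val_vW, val_vP] at hn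
    obtain ⟨h1, h2, h3⟩ := hn
    have := h1 h2; have := h3 h2; omega
  | inside n =>
    simp [clause, colours, holds_pos, holds_neg, val_vW, val_vU] at hn
    obtain ⟨⟨d, hd⟩, h0, h1, h2, h3, h4⟩ := hn
    fin_cases d <;> contradiction
  | nodeKinds n =>
    simp [clause, holds_pos, holds_neg, val_vN, val_vQ, val_vT] at hn
    obtain ⟨⟨h1, h2⟩, h3, h4⟩ := hn
    have h5 := card_cols_le_four hy (by simpa [ok] using hr) h1
    have := h3 h1; have := h4 h1; omega
  | noTriple n =>
    simp [clause, holds_neg, val_vT] at hn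
    exact hy.three (of_decide_eq_true hr) _ hn.1 hn.2
  | qn n =>
    simp [clause, holds_pos, holds_neg, val_vQ, val_vN] at hn
    have := hn.2 hn.1.1; omega
  | tn n =>
    simp [clause, holds_pos, holds_neg, val_vT, val_vN] at hn
    have := hn.2 hn.1.1; omega
  | qt n =>
    simp [clause, holds_neg, val_vT, val_vQ] at hn
    omega
  | openClosed n c =>
    simp [clause, holds_pos, holds_neg, val_vU, val_vM] at hn
    exact hn.2 (C.subset_K c hn.1)
  | nodeNotOpen n c =>
    simp [clause, holds_neg, val_vU, val_vN] at hn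
    exact hn.1.1 ⟨c, hn.2⟩
  | pairNotOpen n c =>
    simp [clause, holds_neg, val_vU, val_vP] at hn
    exact hn.1.1 ⟨c, hn.2⟩
  | openAdj n m c =>
    simp [clause, holds_neg, val_vU, val_vM] at hn
    exact C.dist_ne_one hn.1 hn.2 (dist_one_of_unit hr)
  | atLeast n k l =>
    simp only [ok, Bool.and_eq_true, decide_eq_true_eq] at hr
    simp only [clause, List.forall_mem_cons, List.forall_mem_map, holds_pos, holds_neg, val_vM,
      not_not] at hn
    have hcard : kindSize k ≤ (cols C (cen n)).card := by
      fin_cases k <;> simp only [kindVar, val_vQ, val_vT, val_vP] at hn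
      · simp [kindSize, hn.1.2]
      · simp [kindSize, hn.1.2]
      · exact two_le_card_cols hn.1.1
    have h2 : Disjoint (cols C (cen n)) l.toFinset :=
      Finset.disjoint_left.2 fun c hc hcl => hn.2 c (List.mem_toFinset.1 hcl) (mem_cols.1 hc)
    have := Finset.card_le_univ (cols C (cen n) ∪ l.toFinset)
    rw [Finset.card_union_of_disjoint h2, List.toFinset_card_of_nodup hr.2, Fintype.card_fin] at this
    fin_cases k <;> simp [kindSize] at hcard hr <;> omega
  | atMost n k l =>
    simp only [ok, Bool.and_eq_true, decide_eq_true_eq] at hr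
    simp only [clause, List.forall_mem_cons, List.forall_mem_map, holds_neg, val_vM, not_not] at hn
    have hcard : (cols C (cen n)).card ≤ kindSize k := by
      fin_cases k <;> simp only [kindVar, val_vQ, val_vT, val_vP] at hn
      · simp [kindSize, hn.1.2]
      · simp [kindSize, hn.1.2]
      · exact hn.1.2
    have := Finset.card_le_card (s := l.toFinset) (t := cols C (cen n))
      fun c hc => mem_cols.2 (hn.2 c (List.mem_toFinset.1 hc))
    rw [List.toFinset_card_of_nodup hr.2] at this
    omega
  | pair n a b c d =>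
    simp [clause, holds_neg, val_vP, val_vM] at hn
    obtain ⟨⟨hP, hcard⟩, hc, hd, ha, hb⟩ := hn
    simp only [ok, Bool.and_eq_true] at hr
    obtain ⟨⟨⟨ra, rb⟩, rab⟩, rsum⟩ := hr
    obtain ⟨e, hM⟩ : ∃ e, (∀ x, cen n ∈ C.K x → x = c ∨ x = e) ∧ (d = c ∨ d = e) := by
      have h2 := two_le_card_cols hP
      obtain ⟨e, he⟩ : ∃ e, (cols C (cen n)).erase c = {e} := Finset.card_eq_one.1 (by
        rw [Finset.card_erase_of_mem (mem_cols.2 hc)]; omega)
      have hmem : ∀ x, cen n ∈ C.K x → x = c ∨ x = e := fun x hx => by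
        by_cases hxc : x = c
        · exact Or.inl hxc
        · exact Or.inr (Finset.mem_singleton.1 (he ▸ Finset.mem_erase.2 ⟨hxc, mem_cols.2 hx⟩))
      exact ⟨e, hmem, hmem d hd⟩
    refine C.two_colour hP hM.1 (y := cen a) (z := cen b) (Or.inl ha) ?_ ?_ ?_ ?_ ?_
    · rcases hM.2 with rfl | rfl
      · exact Or.inl hb
      · exact Or.inr hb
    · rw [dist_comm]; exact dist_one_of_unit ra
    · rw [dist_comm]; exact dist_one_of_unit rb
    · intro hh
      exact Pt.ne_zero_of_pos rab (by rw [Pt.val_sub]; exact sub_eq_zero.2 hh)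
    · intro hh
      refine Pt.ne_zero_of_pos rsum ?_
      simp only [Pt.val_sub, Pt.val_add]
      simp only [cen] at hh
      linear_combination hh
  | fiveTwo j s x =>
    simp only [clause, List.forall_mem_map, List.mem_filter, and_imp, holds_pos, val_vS] at hn
    simp only [ok, Bool.and_eq_true, decide_eq_true_eq] at hr
    refine cases_reason_five hg hy hr.1 hr.2 fun c hc => hn c ?_ (by simpa using hc)
    fin_cases c <;> simp [colours]
  | fiveAnti s a b c d ja jb jc jd =>
    simp [clause, holds_neg, val_vS] at hn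
    simp only [ok, Bool.and_eq_true, decide_eq_true_eq] at hr
    obtain ⟨⟨⟨⟨⟨h5, hnd⟩, hu⟩, lb⟩, lc⟩, ld⟩ := hr
    obtain ⟨x, hx⟩ : ∃ x, ∀ y, y ≠ x → y = a ∨ y = b ∨ y = c ∨ y = d := by
      revert hnd; clear * -; revert a b c d; decide
    refine anti_sound hg (i := 0) (s := s) (x := x) (cen_zero.symm ▸ hy.root_not) hu fun y hy' => Or.inr ?_
    rcases hx y hy' with rfl | rfl | rfl | rfl
    · exact ⟨ja, by simp [Pt.sameLine, Pt.same_iff], hn.1⟩
    · exact ⟨jb, lb, hn.2.1⟩
    · exact ⟨jc, lc, hn.2.2.1⟩
    · exact ⟨jd, ld, hn.2.2.2⟩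
  | quadTwo i j s f x =>
    simp only [clause, List.forall_mem_append, List.forall_mem_cons, List.forall_mem_map,
      List.mem_filter, List.not_mem_nil, IsEmpty.forall_iff, implies_true, and_true, and_imp,
      and_assoc, holds_pos, val_vM, val_vS] at hn
    simp only [ok, Bool.and_eq_true, Bool.not_eq_true', decide_eq_false_iff_not] at hr
    obtain ⟨hp, hf, hSf, hrest⟩ := hn
    obtain ⟨hQ, hcard⟩ := quad_at hy hr.1.1 hp
    have hM := cols_eq_compl (C := C) (p := cen i) (l := {f}) (by simp [hcard]) (by simpa using hf)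
    refine false_of_single (dist_path i s (τ s) hr.1.2) ((hM x).2 (by simpa using Ne.symm hr.2))
      fun c hc => ?_
    by_cases hcf : c = f
    · exact hcf ▸ hSf
    · exact hrest c (by fin_cases c <;> simp [colours]) (by simp [hc, hcf])
  | quadAnti i s a b c ja jb jc =>
    simp only [clause, List.mem_append, List.mem_cons, or_imp, forall_and, forall_eq,
      List.not_mem_nil, IsEmpty.forall_iff, implies_true, and_true, holds_neg, not_not, val_vM,
      val_vS] at hn
    simp only [ok, Bool.and_eq_true, decide_eq_true_eq] at hr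
    obtain ⟨⟨⟨⟨hpre, hnd⟩, hu⟩, lb⟩, lc⟩ := hr
    obtain ⟨hp, hMa, hMb, hMc, hSa, hSb, hSc⟩ := hn
    obtain ⟨hQ, hcard⟩ := quad_at hy hpre hp
    have hsub : ({a, b, c} : Finset (Fin 5)) ⊆ cols C (cen i) := by
      simp [Finset.insert_subset_iff, mem_cols, hMa, hMb, hMc]
    obtain ⟨x, hx⟩ : ∃ x, cols C (cen i) \ {a, b, c} = {x} := Finset.card_eq_one.1 (by
      rw [Finset.card_sdiff_of_subset hsub, hcard,
        show ({a, b, c} : Finset (Fin 5)).card = 3 by
          revert hnd; clear * -; revert a b c; decide])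
    refine anti_sound hg (s := s) (x := x) hQ hu fun y hy' => ?_
    by_cases hyK : cen i ∈ C.K y
    · have : y = a ∨ y = b ∨ y = c := by
        by_contra hh
        exact hy' (Finset.mem_singleton.1 (hx ▸ Finset.mem_sdiff.2 ⟨mem_cols.2 hyK, by simpa using hh⟩))
      refine Or.inr ?_
      rcases this with rfl | rfl | rfl
      · exact ⟨ja, by simp [Pt.sameLine, Pt.same_iff], hSa⟩
      · exact ⟨jb, lb, hSb⟩
      · exact ⟨jc, lc, hSc⟩
    · exact Or.inl hyK
  | tripleOne i j s d e =>
    simp only [clause, List.mem_append, List.mem_cons, or_imp, forall_and, forall_eq,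
      List.not_mem_nil, IsEmpty.forall_iff, implies_true, and_true, holds_pos, val_vM,
      val_vS] at hn
    simp only [ok, Bool.and_eq_true, Bool.not_eq_true', decide_eq_false_iff_not] at hr
    obtain ⟨hp, hMd, hMe, hSd, hSe⟩ := hn
    obtain ⟨hT, hcard⟩ := triple_at hy hr.1.1 hp
    have hM := cols_eq_compl (C := C) (p := cen i) (l := {d, e}) (by simp [hcard, hr.2]) (by simp [hMd, hMe])
    rcases C.circle_cover hT hr.2 (fun c => by rw [hM]; simp) (Pt.norm_of_unit hr.1.2)
      (dir s * τ s) with h | h
    · exact hSd h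
    · exact hSe h
  | tripleNotBoth i j s d e =>
    simp only [clause, List.mem_append, List.mem_cons, or_imp, forall_and, forall_eq,
      List.not_mem_nil, IsEmpty.forall_iff, implies_true, and_true, holds_pos, holds_neg, not_not,
      val_vM, val_vS] at hn
    simp only [ok, Bool.and_eq_true, Bool.not_eq_true', decide_eq_false_iff_not] at hr
    obtain ⟨hp, hMd, hMe, hSd, hSe⟩ := hn
    obtain ⟨hT, hcard⟩ := triple_at hy hr.1.1 hp
    have hM := cols_eq_compl (C := C) (p := cen i) (l := {d, e}) (by simp [hcard, hr.2]) (by simp [hMd, hMe])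
    exact C.circle_not_both hT hr.2 (fun c => by rw [hM]; simp) (Pt.norm_of_unit hr.1.2)
      (sample_eventually hg hSd) (sample_eventually hg hSe)
  | tripleAnti i s a b ja jb =>
    simp only [clause, List.mem_append, List.mem_cons, or_imp, forall_and, forall_eq,
      List.not_mem_nil, IsEmpty.forall_iff, implies_true, and_true, holds_neg, not_not, val_vM,
      val_vS] at hn
    simp only [ok, Bool.and_eq_true, decide_eq_true_eq] at hr
    obtain ⟨⟨⟨hpre, hnd⟩, hu⟩, lb⟩ := hr
    obtain ⟨hp, hMa, hMb, hSa, hSb⟩ := hn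
    obtain ⟨hT, hcard⟩ := triple_at hy hpre hp
    have hsub : ({a, b} : Finset (Fin 5)) ⊆ cols C (cen i) := by
      simp [Finset.insert_subset_iff, mem_cols, hMa, hMb]
    obtain ⟨x, hx⟩ : ∃ x, cols C (cen i) \ {a, b} = {x} := Finset.card_eq_one.1 (by
      rw [Finset.card_sdiff_of_subset hsub, hcard,
        show ({a, b} : Finset (Fin 5)).card = 2 by revert hnd; clear * -; revert a b; decide])
    refine anti_sound hg (s := s) (x := x) hT hu fun y hy' => ?_
    by_cases hyK : cen i ∈ C.K y
    · have : y = a ∨ y = b := by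
        by_contra hh
        exact hy' (Finset.mem_singleton.1 (hx ▸ Finset.mem_sdiff.2 ⟨mem_cols.2 hyK, by simpa using hh⟩))
      refine Or.inr ?_
      rcases this with rfl | rfl
      · exact ⟨ja, by simp [Pt.sameLine, Pt.same_iff], hSa⟩
      · exact ⟨jb, lb, hSb⟩
    · exact Or.inl hyK
  | regular j s s' c =>
    simp [clause, holds_pos, holds_neg, val_vA, val_vE] at hn
    simp only [ok, Bool.and_eq_true, Bool.or_eq_true, decide_eq_true_eq] at hr
    exact hn.1 (hy.reg j s s' c hr.1 hr.2 hn.2)
  | regularPair j s s' c =>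
    simp [clause, holds_pos, holds_neg, val_vA, val_vE] at hn
    simp only [ok, Bool.and_eq_true, decide_eq_true_eq, Bool.not_eq_true',
      decide_eq_false_iff_not] at hr
    exact hn.2.1 (hy.regPair hr.1.2 j s s' c hr.1.1 hr.2 hn.1 hn.2.2)
  | exact i j i' j' s c =>
    simp [clause, holds_neg, val_vS] at hn
    exact exact_sound hg hr hn.1 hn.2
  | rates i j s i' j' s' c =>
    simp [clause, holds_neg, val_vA, val_vE] at hn
    exact rates_sound hr hn.1 hn.2

/-- The renumbered statements. -/
noncomputable def renum (V : ℕ → Prop) (vars : Table) (k : ℕ) : Prop := V (vars.get k)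

/-- Clauses with checked reasons are true. -/
theorem satBelow_of_coreFrom (hg : Good C X τ) (hy : Hyp C X τ) (vars t : Table) :
    ∀ rs i, SatBelow (renum (Val C X τ) vars) t i → coreFrom X vars t rs i = true →
      SatBelow (renum (Val C X τ) vars) t (i + rs.length)
  | [], _, hv, _ => hv
  | r :: rs, i, hv, hc => by
    simp only [coreFrom, reasonOk, Bool.and_eq_true, List.all_eq_true, List.any_eq_true] at hc
    rw [List.length_cons, show i + (rs.length + 1) = i + 1 + rs.length by ring]
    refine satBelow_of_coreFrom hg hy vars t rs (i + 1) (fun k hk => ?_) hc.2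
    rcases Nat.lt_succ_iff_lt_or_eq.1 hk with hk | rfl
    · exact hv k hk
    · obtain ⟨l, hl, hh⟩ := clause_true hg hy r hc.1.1
      obtain ⟨m, hm, hml⟩ := hc.1.2 l hl
      obtain ⟨q, hq, rfl⟩ := List.mem_map.1 hm
      refine ⟨q, hq, ?_⟩
      have e := Nat.eq_of_beq_eq_true hml
      subst e
      unfold Holds renum at *
      rw [show (2 * vars.get (q / 2) + q % 2) / 2 = vars.get (q / 2) by omega,
        show (2 * vars.get (q / 2) + q % 2) % 2 = q % 2 by omega] at hh
      exact hh

/-- A table whose last clause is empty refutes the configuration. -/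
theorem false_of_empty (vars t : Table) {n : ℕ}
    (h : SatBelow (renum (Val C X τ) vars) t (n + 1)) (h0 : t.get n = 0) : False := by
  obtain ⟨l, hl, -⟩ := h n (Nat.lt_succ_self n)
  rw [h0] at hl
  rw [show fields 256 0 = [] from rfl] at hl
  simp at hl

end Vale.Agent.P032.Cert
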