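import Mathlib

/-!
P032: a checker for unit-propagation refutations, meant for evaluation in the kernel.

A literal is `2 * v` (variable `v` true) or `2 * v + 1` (false). A clause, or a list of earlier
clause numbers, is packed in fields of sixteen bits, each holding the entry plus one.
-/

namespace Vale.Agent.P032.Cert

/-- Hands a number on in a form that the kernel has evaluated. -/
noncomputable def force {α : Type} (n : ℕ) (k : ℕ → α) : α :=
  Nat.rec (k 0) (fun p _ => k (Nat.succ p)) n

lemma force_eq {α : Type} (n : ℕ) (k : ℕ → α) : force n k = k n := by cases n <;> rfl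

/-- A table of packed numbers, addressed by the binary digits of the index from the lowest. -/
inductive Table where
  | leaf (n : ℕ)
  | node (l r : Table)

/-- The entry of a table at an index. -/
noncomputable def Table.get (t : Table) : ℕ → ℕ :=
  Table.rec (fun n _ => n) (fun _ _ gl gr i => force (Nat.div i 2) fun j =>
    Bool.rec (gr j) (gl j) (Nat.beq (Nat.mod i 2) 0)) t

/-- The entries of a packed list. -/
def fields : ℕ → ℕ → List ℕ
  | 0, _ => []
  | fuel + 1, c => bif Nat.beq c 0 then [] else (c % 65536 - 1) :: fields fuel (c >>> 16)

/-- The set of falsified literals after making all literals of a packed clause false. -/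
def negAll : ℕ → ℕ → ℕ → ℕ
  | 0, _, F => F
  | fuel + 1, c, F =>
    bif Nat.beq c 0 then F else negAll fuel (c >>> 16) (F ||| (1 <<< (c % 65536 - 1)))

/-- Zero if all literals are falsified, `l + 1` if `l` is the only other one, and a number from
`131072` on if nothing can be concluded. -/
noncomputable def scan (fuel : ℕ) : ℕ → ℕ → ℕ → ℕ :=
  Nat.rec (fun _ _ _ => 131072)
    (fun _ ih c F acc =>
      bif Nat.beq c 0 then acc
      else bif Nat.beq ((F >>> (c % 65536 - 1)) % 2) 1 then ih (c >>> 16) F acc
      else bif Nat.beq acc 0 then ih (c >>> 16) F (Nat.succ (c % 65536 - 1))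
      else 131072) fuel

/-- The opposite literal. -/
def opp (l : ℕ) : ℕ := bif Nat.beq (l % 2) 0 then l + 1 else l - 1

/-- After the scan of one clause. -/
def after (next : ℕ → Bool) (F : ℕ) (v : ℕ) : Bool :=
  bif Nat.beq v 0 then true
  else bif Nat.ble 131072 v then false
  else next (F ||| (1 <<< opp (v - 1)))

/-- Unit propagation along the packed clause numbers ends in a conflict. -/
noncomputable def propagate (t : Table) (lim : ℕ) (fuel : ℕ) : ℕ → ℕ → Bool :=
  Nat.rec (fun _ _ => false)
    (fun _ ih hs F =>
      bif Nat.beq hs 0 then false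
      else force (hs % 65536 - 1) fun i =>
        bif Nat.ble lim i then false
        else force (t.get i) fun c => force (hs >>> 16) fun hs' =>
          force (scan 256 c F 0) fun v => after (ih hs') F v) fuel

/-- The clause number `i` follows from the earlier ones by unit propagation. -/
noncomputable def stepOk (t : Table) (hints : ℕ) (i : ℕ) : Bool :=
  propagate t i 4096 hints (negAll 256 (t.get i) 0)

/-- All listed steps are justified, the clauses being numbered from `i` on. -/
noncomputable def checkFrom (t : Table) : List ℕ → ℕ → Bool
  | [], _ => true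
  | h :: hs, i => stepOk t h i && checkFrom t hs (i + 1)

/-- Truth of a literal. -/
def Holds (v : ℕ → Prop) (l : ℕ) : Prop := if l % 2 = 0 then v (l / 2) else ¬ v (l / 2)

/-- Truth of a packed clause. -/
def Sat (v : ℕ → Prop) (c : ℕ) : Prop := ∃ l ∈ fields 256 c, Holds v l

/-- The literals in the set are false. -/
def Falsified (v : ℕ → Prop) (F : ℕ) : Prop := ∀ l, F.testBit l = true → ¬ Holds v l

/-- The first `n` clauses of the table are true. -/
def SatBelow (v : ℕ → Prop) (t : Table) (n : ℕ) : Prop := ∀ j < n, Sat v (t.get j)

variable {v : ℕ → Prop}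

lemma beq_false_of_ne {a b : ℕ} (h : a ≠ b) : Nat.beq a b = false := by
  cases hb : Nat.beq a b
  · rfl
  · exact absurd (Nat.eq_of_beq_eq_true hb) h

lemma not_holds_opp {l : ℕ} (h : Holds v l) : ¬ Holds v (opp l) := by
  unfold opp Holds at *
  rcases Nat.mod_two_eq_zero_or_one l with e | e
  · rw [if_pos e] at h
    simp only [e, show Nat.beq 0 0 = true from rfl, cond_true]
    rw [if_neg (by omega), show (l + 1) / 2 = l / 2 by omega]
    exact not_not_intro h
  · rw [if_neg (by omega)] at h
    simp only [e, show Nat.beq 1 0 = false from rfl, cond_false]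
    rw [if_pos (by omega), show (l - 1) / 2 = l / 2 by omega]
    exact h

lemma Falsified.insert {F l : ℕ} (h : Falsified v F) (hl : ¬ Holds v l) :
    Falsified v (F ||| (1 <<< l)) := by
  intro m hm
  rw [Nat.testBit_or, Bool.or_eq_true, Nat.one_shiftLeft, Nat.testBit_two_pow] at hm
  rcases hm with hm | hm
  · exact h m hm
  · rwa [← of_decide_eq_true hm]

lemma falsified_negAll : ∀ fuel c F, Falsified v F → (∀ l ∈ fields fuel c, ¬ Holds v l) →
    Falsified v (negAll fuel c F)
  | 0, _, _, hF, _ => hF
  | fuel + 1, c, F, hF, hc => by
    by_cases h0 : c = 0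
    · subst h0; simpa [negAll] using hF
    · simp only [negAll, fields, beq_false_of_ne h0, cond_false, List.mem_cons, forall_eq_or_imp]
        at hc ⊢
      exact falsified_negAll fuel _ _ (hF.insert hc.1) hc.2

lemma scan_spec : ∀ fuel c F acc, scan fuel c F acc < 131072 →
    (acc ≠ 0 → scan fuel c F acc = acc) ∧
      ∀ l ∈ fields fuel c, F.testBit l = true ∨ scan fuel c F acc = l + 1
  | 0, _, _, _, h => absurd h (lt_irrefl _)
  | fuel + 1, c, F, acc, h => by
    have e : scan (fuel + 1) c F acc = (bif Nat.beq c 0 then acc
        else bif Nat.beq ((F >>> (c % 65536 - 1)) % 2) 1 then scan fuel (c >>> 16) F acc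
        else bif Nat.beq acc 0 then scan fuel (c >>> 16) F (Nat.succ (c % 65536 - 1))
        else 131072) := rfl
    by_cases h0 : c = 0
    · subst h0
      rw [e]
      simp [fields]
    · rw [e] at h ⊢
      simp only [beq_false_of_ne h0, cond_false, fields, List.mem_cons, forall_eq_or_imp] at h ⊢
      by_cases h1 : (F >>> (c % 65536 - 1)) % 2 = 1
      · simp only [h1, show Nat.beq 1 1 = true from rfl, cond_true] at h ⊢
        obtain ⟨p, q⟩ := scan_spec fuel _ _ _ h
        refine ⟨p, Or.inl ?_, q⟩
        rw [Nat.testBit_eq_decide_div_mod_eq, ← Nat.shiftRight_eq_div_pow]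
        exact decide_eq_true h1
      · simp only [beq_false_of_ne h1, cond_false] at h ⊢
        by_cases h2 : acc = 0
        · subst h2
          simp only [show Nat.beq 0 0 = true from rfl, cond_true] at h ⊢
          obtain ⟨p, q⟩ := scan_spec fuel _ _ _ h
          exact ⟨fun hne => absurd rfl hne, Or.inr (p (Nat.succ_ne_zero _)), q⟩
        · simp [beq_false_of_ne h2] at h

lemma propagate_sound (t : Table) (lim : ℕ) (hv : SatBelow v t lim) :
    ∀ fuel hs F, Falsified v F → propagate t lim fuel hs F = true → False
  | 0, _, _, _, h => Bool.false_ne_true h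
  | fuel + 1, hs, F, hF, h => by
    have e : propagate t lim (fuel + 1) hs F = (bif Nat.beq hs 0 then false
      else force (hs % 65536 - 1) fun i =>
        bif Nat.ble lim i then false
        else force (t.get i) fun c => force (hs >>> 16) fun hs' =>
          force (scan 256 c F 0) fun w => after (propagate t lim fuel hs') F w) := rfl
    rw [e] at h
    by_cases h0 : hs = 0
    · subst h0; exact Bool.false_ne_true h
    simp only [beq_false_of_ne h0, cond_false, force_eq] at h
    cases hi : Nat.ble lim (hs % 65536 - 1) <;> rw [hi] at h
    · simp only [cond_false] at h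
      have hlt : hs % 65536 - 1 < lim := by
        by_contra hle
        rw [Nat.ble_eq_true_of_le (not_lt.1 hle)] at hi
        exact Bool.noConfusion hi
      obtain ⟨l, hl, hh⟩ := hv _ hlt
      set w := scan 256 (t.get (hs % 65536 - 1)) F 0 with hw
      unfold after at h
      by_cases w0 : w = 0
      · rcases (scan_spec 256 _ _ _ (by rw [← hw, w0]; norm_num)).2 l hl with hb | hb
        · exact hF l hb hh
        · rw [← hw] at hb; omega
      · simp only [beq_false_of_ne w0, cond_false] at h
        cases hb : Nat.ble 131072 w <;> rw [hb] at h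
        · simp only [cond_false] at h
          have wlt : w < 131072 := by
            by_contra hle
            rw [Nat.ble_eq_true_of_le (not_lt.1 hle)] at hb
            exact Bool.noConfusion hb
          rcases (scan_spec 256 _ _ _ (hw ▸ wlt)).2 l hl with hb | hb
          · exact hF l hb hh
          · refine propagate_sound t lim hv fuel _ _ (hF.insert ?_) h
            rw [← hw] at hb
            rw [show w - 1 = l by omega]
            exact not_holds_opp hh
        · exact Bool.false_ne_true h
    · exact Bool.false_ne_true h

/-- The checked steps preserve truth. -/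
theorem satBelow_of_checkFrom (t : Table) : ∀ hs i, SatBelow v t i →
    checkFrom t hs i = true → SatBelow v t (i + hs.length)
  | [], _, hv, _ => hv
  | h :: hs, i, hv, hc => by
    simp only [checkFrom, Bool.and_eq_true] at hc
    rw [List.length_cons, show i + (hs.length + 1) = i + 1 + hs.length by ring]
    refine satBelow_of_checkFrom t hs (i + 1) (fun j hj => ?_) hc.2
    rcases Nat.lt_succ_iff_lt_or_eq.1 hj with hj | rfl
    · exact hv j hj
    · by_contra hns
      refine propagate_sound t _ hv 4096 h _ (falsified_negAll 256 _ 0 (fun l hl => ?_) ?_) hc.1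
      · simp at hl
      · exact fun l hl hh => hns ⟨l, hl, hh⟩

end Vale.Agent.P032.Cert
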