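import Vale.Agent.P032.Cert.Geom
import Vale.Agent.P032.Cert.Rup

/-!
P032: the clauses that a certificate may use, and when each of them may be used.

A statement about centre `n`, point `j`, side `s` and colour `c` is numbered
`kind + 16 * (c + 8 * (s + 2 * (n + 8 * j)))`.
-/

namespace Vale.Agent.P032.Cert

/-- The three kinds of configuration about the origin. -/
inductive Root where
  | five
  | triple
  | quad
deriving DecidableEq

/-- The colours of the origin. -/
def Root.has : Root → Fin 5 → Bool
  | .five, _ => true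
  | .triple, c => decide (c.val < 3)
  | .quad, c => decide (c.val < 4)

/-- The number of a statement. -/
def code (kind : ℕ) (c : Fin 5) (s : Bool) (n : Fin 7) (j : ℕ) : ℕ :=
  kind + 16 * (c.val + 8 * ((bif s then 1 else 0) + 2 * (n.val + 8 * j)))

/-- The sample of point `j` about centre `n` on side `s` has colour `c`. -/
def vS (n : Fin 7) (j : ℕ) (s : Bool) (c : Fin 5) : ℕ := code 0 c s n j
/-- All nearby points on that side have that colour. -/
def vA (n : Fin 7) (j : ℕ) (s : Bool) (c : Fin 5) : ℕ := code 1 c s n j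
/-- Intervals of that colour come near on that side. -/
def vE (n : Fin 7) (j : ℕ) (s : Bool) (c : Fin 5) : ℕ := code 2 c s n j
/-- Centre `n` has colour `c`. -/
def vM (n : Fin 7) (c : Fin 5) : ℕ := code 3 c false n 0
/-- Centre `n` is inside colour `c`. -/
def vU (n : Fin 7) (c : Fin 5) : ℕ := code 4 c false n 0
/-- Centre `n` is a node. -/
def vN (n : Fin 7) : ℕ := code 5 0 false n 0
/-- Centre `n` is inside. -/
def vW (n : Fin 7) : ℕ := code 6 0 false n 0
/-- Centre `n` has two colours. -/
def vP (n : Fin 7) : ℕ := code 7 0 false n 0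
/-- Centre `n` has four colours. -/
def vQ (n : Fin 7) : ℕ := code 8 0 false n 0
/-- Centre `n` has three colours. -/
def vT (n : Fin 7) : ℕ := code 9 0 false n 0

/-- A positive literal. -/
def pos (v : ℕ) : ℕ := 2 * v
/-- A negative literal. -/
def neg (v : ℕ) : ℕ := 2 * v + 1

/-- The five colours. -/
def colours : List (Fin 5) := [0, 1, 2, 3, 4]

/-- The names of the clause families. -/
inductive Reason where
  | given (k : ℕ)
  | some (i : Fin 7) (j : ℕ) (s : Bool)
  | allSample (i : Fin 7) (j : ℕ) (s : Bool) (c : Fin 5)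
  | sampleSome (i : Fin 7) (j : ℕ) (s : Bool) (c : Fin 5)
  | only (i : Fin 7) (j : ℕ) (s : Bool) (c : Fin 5)
  | limit (i : Fin 7) (j : ℕ) (s : Bool) (c : Fin 5) (n : Fin 7)
  | openAll (i : Fin 7) (j : ℕ) (s : Bool) (c : Fin 5) (n : Fin 7)
  | openFar (i : Fin 7) (j : ℕ) (s : Bool) (c : Fin 5) (n : Fin 7)
  | rootM (c : Fin 5)
  | rootU (c : Fin 5)
  | kinds (n : Fin 7)
  | inside (n : Fin 7)
  | nodeKinds (n : Fin 7)
  | noTriple (n : Fin 7)
  | qn (n : Fin 7)
  | tn (n : Fin 7)
  | qt (n : Fin 7)
  | openClosed (n : Fin 7) (c : Fin 5)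
  | nodeNotOpen (n : Fin 7) (c : Fin 5)
  | pairNotOpen (n : Fin 7) (c : Fin 5)
  | openAdj (n m : Fin 7) (c : Fin 5)
  | atLeast (n : Fin 7) (k : Fin 3) (l : List (Fin 5))
  | atMost (n : Fin 7) (k : Fin 3) (l : List (Fin 5))
  | pair (n a b : Fin 7) (c d : Fin 5)
  | fiveTwo (j : ℕ) (s : Bool) (x : Fin 5)
  | fiveAnti (s : Bool) (a b c d : Fin 5) (ja jb jc jd : ℕ)
  | quadTwo (i : Fin 7) (j : ℕ) (s : Bool) (f x : Fin 5)
  | quadAnti (i : Fin 7) (s : Bool) (a b c : Fin 5) (ja jb jc : ℕ)
  | tripleOne (i : Fin 7) (j : ℕ) (s : Bool) (d e : Fin 5)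
  | tripleNotBoth (i : Fin 7) (j : ℕ) (s : Bool) (d e : Fin 5)
  | tripleAnti (i : Fin 7) (s : Bool) (a b : Fin 5) (ja jb : ℕ)
  | regular (j : ℕ) (s s' : Bool) (c : Fin 5)
  | regularPair (j : ℕ) (s s' : Bool) (c : Fin 5)
  | exact (i : Fin 7) (j : ℕ) (i' : Fin 7) (j' : ℕ) (s : Bool) (c : Fin 5)
  | rates (i : Fin 7) (j : ℕ) (s : Bool) (i' : Fin 7) (j' : ℕ) (s' : Bool) (c : Fin 5)

/-- The data of a certificate: the configuration, the offsets and the extra clauses. -/
structure Ctx where
  root : Root
  pts : List Pt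
  given : List (List ℕ)

/-- The `j`-th offset. -/
def Ctx.pt (K : Ctx) (j : ℕ) : Pt := K.pts.getD j Pt.zero

/-- The `j`-th offset about centre `i`. -/
def Ctx.at (K : Ctx) (i : Fin 7) (j : ℕ) : Pt := (ctr i).add (K.pt j)

/-- The point `b` or its opposite. -/
def Pt.sameLine (b q : Pt) : Bool := q.same b || q.same b.neg

/-- The kinds named by `atLeast` and `atMost`. -/
def kindVar : Fin 3 → Fin 7 → ℕ
  | 0, n => vQ n
  | 1, n => vT n
  | 2, n => vP n

/-- The number of colours of those kinds. -/
def kindSize : Fin 3 → ℕ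
  | 0 => 4
  | 1 => 3
  | 2 => 2

/-- The colour sets of the root configuration need no kind. -/
def pre (v : Fin 7 → ℕ) (i : Fin 7) : List ℕ :=
  bif decide (i.val = 0) then [] else [neg (v i)]

/-- A clause of the family may be used at centre `i`. -/
def Ctx.preOk (K : Ctx) (r : Root) (i : Fin 7) : Bool :=
  !decide (i.val = 0) || decide (K.root = r)

/-- The positions where the origin's circle is free of changes on the sides `s`, `s'`. -/
def regOk (b : Pt) (s s' : Bool) : Bool :=
  b.unit && ((s && s') || !(hexPts.any b.same))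

/-- The clause of a reason. -/
def clause (K : Ctx) : Reason → List ℕ
  | .given k => K.given.getD k []
  | .some i j s => colours.map fun c => pos (vS i j s c)
  | .allSample i j s c => [neg (vA i j s c), pos (vS i j s c)]
  | .sampleSome i j s c => [neg (vS i j s c), pos (vE i j s c)]
  | .only i j s c =>
    pos (vA i j s c) :: (colours.filter (fun d => !decide (d = c))).map fun d => pos (vE i j s d)
  | .limit i j s c n => [neg (vE i j s c), pos (vM n c)]
  | .openAll i j s c n => [neg (vU n c), pos (vA i j s c)]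
  | .openFar i j s c n => [neg (vU n c), neg (vE i j s c)]
  | .rootM c => [bif K.root.has c then pos (vM 0 c) else neg (vM 0 c)]
  | .rootU c => [neg (vU 0 c)]
  | .kinds n => [pos (vN n), pos (vW n), pos (vP n)]
  | .inside n => neg (vW n) :: colours.map fun c => pos (vU n c)
  | .nodeKinds n => [neg (vN n), pos (vQ n), pos (vT n)]
  | .noTriple n => [neg (vT n)]
  | .qn n => [neg (vQ n), pos (vN n)]
  | .tn n => [neg (vT n), pos (vN n)]
  | .qt n => [neg (vQ n), neg (vT n)]
  | .openClosed n c => [neg (vU n c), pos (vM n c)]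
  | .nodeNotOpen n c => [neg (vN n), neg (vU n c)]
  | .pairNotOpen n c => [neg (vP n), neg (vU n c)]
  | .openAdj n m c => [neg (vU n c), neg (vM m c)]
  | .atLeast n k l => neg (kindVar k n) :: l.map fun c => pos (vM n c)
  | .atMost n k l => neg (kindVar k n) :: l.map fun c => neg (vM n c)
  | .pair n a b c d =>
    [neg (vP n), neg (vM n c), neg (vM n d), neg (vM a c), neg (vM b d)]
  | .fiveTwo j s x => (colours.filter (fun c => !decide (c = x))).map fun c => pos (vS 0 j s c)
  | .fiveAnti s a b c d ja jb jc jd =>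
    [neg (vS 0 ja s a), neg (vS 0 jb s b), neg (vS 0 jc s c), neg (vS 0 jd s d)]
  | .quadTwo i j s f x =>
    pre vQ i ++ [pos (vM i f), pos (vS i j s f)] ++
      (colours.filter (fun c => !decide (c = x) && !decide (c = f))).map fun c => pos (vS i j s c)
  | .quadAnti i s a b c ja jb jc =>
    pre vQ i ++ [neg (vM i a), neg (vM i b), neg (vM i c),
      neg (vS i ja s a), neg (vS i jb s b), neg (vS i jc s c)]
  | .tripleOne i j s d e =>
    pre vT i ++ [pos (vM i d), pos (vM i e), pos (vS i j s d), pos (vS i j s e)]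
  | .tripleNotBoth i j s d e =>
    pre vT i ++ [pos (vM i d), pos (vM i e), neg (vS i j s d), neg (vS i j s e)]
  | .tripleAnti i s a b ja jb =>
    pre vT i ++ [neg (vM i a), neg (vM i b), neg (vS i ja s a), neg (vS i jb s b)]
  | .regular j s s' c => [pos (vA 0 j s c), neg (vE 0 j s' c)]
  | .regularPair j s s' c => [pos (vE 0 j s 4), pos (vA 0 j s c), neg (vE 0 j s' c)]
  | .exact i j i' j' s c => [neg (vS i j s c), neg (vS i' j' s c)]
  | .rates i j s i' j' s' c => [neg (vA i' j' s' c), neg (vE i j s c)]

/-- The conditions on the use of a reason. -/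
def ok (K : Ctx) : Reason → Bool
  | .given k => decide (k < K.given.length)
  | .limit i j _ _ n => (K.at i j).same (ctr n)
  | .openAll i j _ _ n => (K.at i j).same (ctr n)
  | .openFar i j _ _ n => ((K.at i j).sub (ctr n)).unit
  | .noTriple _ => decide (K.root = .quad)
  | .nodeKinds _ => !decide (K.root = .five)
  | .openAdj n m _ => ((ctr n).sub (ctr m)).unit
  | .atLeast _ k l => decide (l.length = 6 - kindSize k) && decide l.Nodup
  | .atMost _ k l => decide (l.length = kindSize k + 1) && decide l.Nodup
  | .pair n a b _ _ =>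
    ((ctr a).sub (ctr n)).unit && ((ctr b).sub (ctr n)).unit && ((ctr a).sub (ctr b)).pos &&
      (((ctr a).add (ctr b)).sub ((ctr n).add (ctr n))).pos
  | .fiveTwo j _ _ => decide (K.root = .five) && (K.pt j).unit
  | .fiveAnti _ a b c d ja jb jc jd =>
    decide (K.root = .five) && decide [a, b, c, d].Nodup && (K.pt ja).unit &&
      (K.pt ja).sameLine (K.pt jb) && (K.pt ja).sameLine (K.pt jc) &&
      (K.pt ja).sameLine (K.pt jd)
  | .quadTwo i j _ f x => K.preOk .quad i && (K.pt j).unit && !decide (f = x)
  | .quadAnti i _ a b c ja jb jc =>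
    K.preOk .quad i && decide [a, b, c].Nodup && (K.pt ja).unit &&
      (K.pt ja).sameLine (K.pt jb) && (K.pt ja).sameLine (K.pt jc)
  | .tripleOne i j _ d e => K.preOk .triple i && (K.pt j).unit && !decide (d = e)
  | .tripleNotBoth i j _ d e => K.preOk .triple i && (K.pt j).unit && !decide (d = e)
  | .tripleAnti i _ a b ja jb =>
    K.preOk .triple i && decide [a, b].Nodup && (K.pt ja).unit && (K.pt ja).sameLine (K.pt jb)
  | .regular j s s' c =>
    regOk (K.pt j) s s' && ((decide (K.root = .triple) && decide (3 ≤ c.val)) ||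
      (decide (K.root = .quad) && decide (c.val = 4)))
  | .regularPair j s s' c =>
    regOk (K.pt j) s s' && decide (K.root = .quad) && !decide (c.val = 4)
  | .exact i j i' j' _ _ =>
    ((K.at i' j').sub (K.at i j)).unit && (decide (i = i') || decide (j = j')) &&
      !decide (turn (K.pt j) ((K.at i' j').sub (K.at i j)) = 0)
  | .rates i j s i' j' s' _ =>
    ((K.at i' j').sub (K.at i j)).unit &&
      !decide (turn (K.pt j) ((K.at i' j').sub (K.at i j)) = 0) &&
      !decide (turn (K.pt j') ((K.at i' j').sub (K.at i j)) = 0) &&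
      (decide (s = s') == decide (turn (K.pt j) ((K.at i' j').sub (K.at i j)) =
        turn (K.pt j') ((K.at i' j').sub (K.at i j))))
  | _ => true

/-- The literals of a renumbered clause. -/
noncomputable def decoded (vars : Table) (c : ℕ) : List ℕ :=
  (fields 256 c).map fun l => 2 * vars.get (l / 2) + l % 2

/-- The clause in the table follows from the reason. -/
noncomputable def reasonOk (K : Ctx) (vars : Table) (c : ℕ) (r : Reason) : Bool :=
  ok K r && (clause K r).all fun l => (decoded vars c).any (Nat.beq l)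

/-- The clauses from number `i` on follow from the reasons. -/
noncomputable def coreFrom (K : Ctx) (vars t : Table) : List Reason → ℕ → Bool
  | [], _ => true
  | r :: rs, i => reasonOk K vars (t.get i) r && coreFrom K vars t rs (i + 1)

end Vale.Agent.P032.Cert
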