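import Mathlib

/-!
P032: exact arithmetic in the field of the certificate points.

A point `(a, b, c, d)` stands for `((a + b√33) + i√3 (c + d√33)) / 36`.
-/

namespace Vale.Agent.P032.Cert

open Complex ComplexConjugate

/-- An exact point. -/
structure Pt where
  a : ℤ
  b : ℤ
  c : ℤ
  d : ℤ
deriving DecidableEq

/-- The origin. -/
def Pt.zero : Pt := ⟨0, 0, 0, 0⟩

/-- Sum. -/
def Pt.add (p q : Pt) : Pt := ⟨p.a + q.a, p.b + q.b, p.c + q.c, p.d + q.d⟩

/-- Difference. -/
def Pt.sub (p q : Pt) : Pt := ⟨p.a - q.a, p.b - q.b, p.c - q.c, p.d - q.d⟩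

/-- Opposite. -/
def Pt.neg (p : Pt) : Pt := ⟨-p.a, -p.b, -p.c, -p.d⟩

/-- Equality by the integer comparison. -/
def Pt.same (p q : Pt) : Bool :=
  decide (p.a = q.a) && decide (p.b = q.b) && decide (p.c = q.c) && decide (p.d = q.d)

/-- The point of the plane. -/
noncomputable def Pt.val (p : Pt) : ℂ :=
  ⟨((p.a : ℝ) + p.b * Real.sqrt 33) / 36,
    Real.sqrt 3 * ((p.c : ℝ) + p.d * Real.sqrt 33) / 36⟩

/-- The point has absolute value one. -/
def Pt.unit (p : Pt) : Bool :=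
  decide (p.a * p.a + 33 * (p.b * p.b) + 3 * (p.c * p.c + 33 * (p.d * p.d)) = 1296) &&
    decide (2 * (p.a * p.b) + 6 * (p.c * p.d) = 0)

/-- The corners of the hexagon of unit vectors, after the origin. -/
def hexPts : List Pt :=
  [⟨0, 0, 0, 0⟩, ⟨36, 0, 0, 0⟩, ⟨18, 0, 18, 0⟩, ⟨-18, 0, 18, 0⟩, ⟨-36, 0, 0, 0⟩, ⟨-18, 0, -18, 0⟩,
    ⟨18, 0, -18, 0⟩]

/-- The `n`-th centre. -/
def ctr (n : Fin 7) : Pt := hexPts.getD n.val Pt.zero

/-- The sign of `x + y√33`. -/
def sign33 (x y : ℤ) : ℤ :=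
  if x = 0 ∧ y = 0 then 0
  else if 0 ≤ x ∧ 0 ≤ y then 1
  else if x ≤ 0 ∧ y ≤ 0 then -1
  else if 0 < x then (if 33 * (y * y) < x * x then 1 else if x * x < 33 * (y * y) then -1 else 0)
  else (if x * x < 33 * (y * y) then 1 else if 33 * (y * y) < x * x then -1 else 0)

/-- The sign of the rate at which the distance to `p` changes in the rotation of `p + q`. -/
def turn (q p : Pt) : ℤ :=
  sign33 (q.a * p.c + 33 * (q.b * p.d) - q.c * p.a - 33 * (q.d * p.b))
    (q.a * p.d + q.b * p.c - q.c * p.b - q.d * p.a)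

lemma Pt.val_zero : Pt.zero.val = 0 := by
  apply Complex.ext <;> simp [Pt.val, Pt.zero]

lemma Pt.val_add (p q : Pt) : (p.add q).val = p.val + q.val := by
  apply Complex.ext <;> simp [Pt.val, Pt.add] <;> ring

lemma Pt.val_sub (p q : Pt) : (p.sub q).val = p.val - q.val := by
  apply Complex.ext <;> simp [Pt.val, Pt.sub] <;> ring

lemma Pt.val_neg (p : Pt) : p.neg.val = -p.val := by
  apply Complex.ext <;> simp [Pt.val, Pt.neg] <;> ring

lemma Pt.same_iff {p q : Pt} : p.same q = true ↔ p = q := by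
  cases p; cases q; simp [Pt.same, and_assoc]

lemma Pt.norm_of_unit {p : Pt} (h : p.unit = true) : ‖p.val‖ = 1 := by
  simp only [Pt.unit, Bool.and_eq_true, decide_eq_true_eq] at h
  have h1 : (p.a : ℝ) * p.a + 33 * ((p.b : ℝ) * p.b) + 3 * ((p.c : ℝ) * p.c + 33 * (p.d * p.d))
      = 1296 := by exact_mod_cast h.1
  have h2 : 2 * ((p.a : ℝ) * p.b) + 6 * (p.c * p.d) = 0 := by exact_mod_cast h.2
  have s3 : Real.sqrt 3 * Real.sqrt 3 = 3 := Real.mul_self_sqrt (by norm_num)
  have s33 : Real.sqrt 33 * Real.sqrt 33 = 33 := Real.mul_self_sqrt (by norm_num)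
  rw [Complex.norm_def, Complex.normSq_apply, Real.sqrt_eq_one]
  simp only [Pt.val]
  linear_combination (1 / 1296 : ℝ) * h1 + (Real.sqrt 33 / 1296) * h2 +
    ((p.b : ℝ) * p.b + 3 * (p.d * p.d)) / 1296 * s33 +
    ((p.c : ℝ) + p.d * Real.sqrt 33) * ((p.c : ℝ) + p.d * Real.sqrt 33) / 1296 * s3

lemma sign33_pos {x y : ℤ} (h : sign33 x y = 1) : 0 < (x : ℝ) + y * Real.sqrt 33 := by
  have hs : 0 < Real.sqrt 33 := Real.sqrt_pos.2 (by norm_num)
  have s33 : Real.sqrt 33 * Real.sqrt 33 = 33 := Real.mul_self_sqrt (by norm_num)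
  unfold sign33 at h
  split_ifs at h with h0 h1 h2 h3 h4 h5 <;> try omega
  · obtain ⟨hx, hy⟩ := h1
    rcases hx.lt_or_eq with hx' | hx'
    · have : (0 : ℝ) ≤ y := by exact_mod_cast hy
      have : (0 : ℝ) < x := by exact_mod_cast hx'
      positivity
    · have : 0 < y := lt_of_le_of_ne hy fun e => h0 ⟨hx'.symm, e.symm⟩
      have : (0 : ℝ) < y := by exact_mod_cast this
      rw [← hx']; push_cast; positivity
  · have hx : (0 : ℝ) < x := by exact_mod_cast h3
    have h4' : 33 * ((y : ℝ) * y) < x * x := by exact_mod_cast h4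
    by_contra hc
    nlinarith [mul_self_le_mul_self hx.le (show (x : ℝ) ≤ -(y * Real.sqrt 33) by linarith)]
  · have hx : (x : ℝ) ≤ 0 := by exact_mod_cast not_lt.1 h3
    have hy : (0 : ℝ) < y := by
      have : 0 < y := by
        by_contra hy
        exact h2 ⟨not_lt.1 h3, not_lt.1 hy⟩
      exact_mod_cast this
    have h4' : (x : ℝ) * x < 33 * (y * y) := by exact_mod_cast ‹x * x < 33 * (y * y)›
    by_contra hc
    nlinarith [mul_self_le_mul_self (show 0 ≤ (y : ℝ) * Real.sqrt 33 by positivity)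
      (show (y : ℝ) * Real.sqrt 33 ≤ -x by linarith)]

/-- A certificate that a point is not the origin. -/
def Pt.pos (p : Pt) : Bool :=
  decide (sign33 (p.a * p.a + 33 * (p.b * p.b) + 3 * (p.c * p.c + 33 * (p.d * p.d)))
    (2 * (p.a * p.b) + 6 * (p.c * p.d)) = 1)

lemma Pt.ne_zero_of_pos {p : Pt} (h : p.pos = true) : p.val ≠ 0 := by
  intro h0
  have := sign33_pos (of_decide_eq_true h)
  push_cast at this
  have hr : ((p.a : ℝ) + p.b * Real.sqrt 33) = 0 := by simpa [Pt.val] using congrArg Complex.re h0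
  have hi : ((p.c : ℝ) + p.d * Real.sqrt 33) = 0 := by simpa [Pt.val] using congrArg Complex.im h0
  have s33 : Real.sqrt 33 * Real.sqrt 33 = 33 := Real.mul_self_sqrt (by norm_num)
  refine this.ne' ?_
  linear_combination ((p.a : ℝ) + p.b * Real.sqrt 33) * hr +
    (3 * ((p.c : ℝ) + p.d * Real.sqrt 33)) * hi - ((p.b : ℝ) * p.b + 3 * (p.d * p.d)) * s33

lemma sign33_neg_swap (x y : ℤ) : sign33 (-x) (-y) = -sign33 x y := by
  unfold sign33
  simp only [mul_neg, neg_mul, neg_neg, neg_eq_zero, Left.nonneg_neg_iff, Left.neg_nonpos_iff,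
    Left.neg_pos_iff]
  split_ifs <;> omega

lemma sign33_cases (x y : ℤ) : sign33 x y = 1 ∨ sign33 x y = -1 ∨ sign33 x y = 0 := by
  unfold sign33; split_ifs <;> omega

lemma turn_sign (q p : Pt) :
    (turn q p = 1 → 0 < (I * q.val * conj p.val).re) ∧
      (turn q p = -1 → (I * q.val * conj p.val).re < 0) := by
  set X := q.a * p.c + 33 * (q.b * p.d) - q.c * p.a - 33 * (q.d * p.b) with hX
  set Y := q.a * p.d + q.b * p.c - q.c * p.b - q.d * p.a with hY
  have s3 : 0 < Real.sqrt 3 := Real.sqrt_pos.2 (by norm_num)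
  have s33 : Real.sqrt 33 * Real.sqrt 33 = 33 := Real.mul_self_sqrt (by norm_num)
  have e : (I * q.val * conj p.val).re = Real.sqrt 3 / 1296 * ((X : ℝ) + Y * Real.sqrt 33) := by
    simp [hX, hY, Pt.val]
    linear_combination (((q.b : ℝ) * p.d - q.d * p.b) * (Real.sqrt 3 / 1296)) * s33
  constructor <;> intro h <;> rw [e]
  · exact mul_pos (by positivity) (sign33_pos h)
  · have h' : sign33 (-X) (-Y) = 1 := by
      rw [sign33_neg_swap, show sign33 X Y = -1 from h]; rfl
    have := sign33_pos h'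
    push_cast at this
    nlinarith [mul_pos (div_pos s3 (by norm_num : (0 : ℝ) < 1296)) this]

lemma turn_ne {q p : Pt} (h : turn q p ≠ 0) : (I * q.val * conj p.val).re ≠ 0 := by
  rcases sign33_cases (q.a * p.c + 33 * (q.b * p.d) - q.c * p.a - 33 * (q.d * p.b))
    (q.a * p.d + q.b * p.c - q.c * p.b - q.d * p.a) with h' | h' | h'
  · exact ((turn_sign q p).1 h').ne'
  · exact ((turn_sign q p).2 h').ne
  · exact absurd h' h

end Vale.Agent.P032.Cert
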