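import Vale.Agent.P032.Cert.Code
import Vale.Agent.P032.Plane.Rules
import Vale.Agent.P032.Plane.Triple

/-!
P032: the meaning of the certificate statements, and the truth of the admissible clauses.
-/

namespace Vale.Agent.P032.Cert

open Set Filter Topology Metric Complex ComplexConjugate

/-- The direction of a side. -/
def dir (s : Bool) : ℝ := bif s then 1 else -1

lemma dir_mul_self (s : Bool) : dir s * dir s = 1 := by cases s <;> simp [dir]

lemma dir_ne (s : Bool) : dir s ≠ 0 := by cases s <;> simp [dir]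

lemma tendsto_dir (s : Bool) : Tendsto (fun t => dir s * t) (𝓝[>] 0) (𝓝 0) := by
  have := ((continuous_const_mul (dir s)).tendsto (0 : ℝ)).mono_left
    (nhdsWithin_le_nhds (s := Ioi (0 : ℝ)))
  simpa using this

open Classical in
/-- The colours of a point. -/
noncomputable def cols (C : Cover) (p : ℂ) : Finset (Fin 5) :=
  Finset.univ.filter fun c => p ∈ C.K c

lemma mem_cols {C : Cover} {p : ℂ} {c : Fin 5} : c ∈ cols C p ↔ p ∈ C.K c := by simp [cols]

/-- A centre. -/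
noncomputable def cen (n : Fin 7) : ℂ := (ctr n).val

lemma cen_zero : cen 0 = 0 := Pt.val_zero

variable (C : Cover) (X : Ctx) (τ : Bool → ℝ)

/-- The moving point `j` about centre `n` at time `t` on side `s`. -/
noncomputable def path (n : Fin 7) (j : ℕ) (s : Bool) (t : ℝ) : ℂ :=
  orbit (cen n) (X.pt j).val (dir s * t)

/-- Colour `c` all the way near the start. -/
def AllNear (n : Fin 7) (j : ℕ) (s : Bool) (c : Fin 5) : Prop :=
  ∀ᶠ t in 𝓝[>] 0, path X n j s t ∈ C.K c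

/-- Intervals of colour `c` near the start. -/
def SomeNear (n : Fin 7) (j : ℕ) (s : Bool) (c : Fin 5) : Prop :=
  ∃ᶠ t in 𝓝[>] 0, ∀ᶠ u in 𝓝 t, path X n j s u ∈ C.K c

/-- Colour `c` at the sample. -/
def AtSample (n : Fin 7) (j : ℕ) (s : Bool) (c : Fin 5) : Prop := path X n j s (τ s) ∈ C.K c

/-- Truth of a numbered statement. -/
def Val (v : ℕ) : Prop :=
  let c : Fin 5 := ⟨v / 16 % 8 % 5, Nat.mod_lt _ (by norm_num)⟩
  let s : Bool := Nat.beq (v / 128 % 2) 1
  let n : Fin 7 := ⟨v / 256 % 8 % 7, Nat.mod_lt _ (by norm_num)⟩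
  let j : ℕ := v / 2048
  match v % 16 with
  | 0 => AtSample C X τ n j s c
  | 1 => AllNear C X n j s c
  | 2 => SomeNear C X n j s c
  | 3 => cen n ∈ C.K c
  | 4 => cen n ∈ C.U c
  | 5 => ¬ C.Inside (cen n) ∧ 3 ≤ (cols C (cen n)).card
  | 6 => C.Inside (cen n)
  | 7 => ¬ C.Inside (cen n) ∧ (cols C (cen n)).card ≤ 2
  | 8 => ¬ C.Inside (cen n) ∧ (cols C (cen n)).card = 4
  | 9 => ¬ C.Inside (cen n) ∧ (cols C (cen n)).card = 3
  | _ => False

/-- Conditions on the two samples. -/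
structure Good : Prop where
  pos : ∀ s, 0 < τ s
  stable : ∀ n j s c, ∀ᶠ t in 𝓝 (τ s), (path X n j s t ∈ C.K c ↔ path X n j s (τ s) ∈ C.K c)
  all : ∀ n j s c, AllNear C X n j s c → AtSample C X τ n j s c
  some : ∀ n j s c, AtSample C X τ n j s c → SomeNear C X n j s c
  ne : ∀ (n m : Fin 7) j s, turn (X.pt j) ((ctr m).sub (ctr n)) ≠ 0 →
    (I * (X.pt j).val * exp (((dir s * τ s : ℝ) : ℂ) * I) * conj (cen m - cen n)).re ≠ 0

/-- The hypotheses on the configuration. -/
structure Hyp : Prop where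
  root_K : ∀ c, (0 : ℂ) ∈ C.K c ↔ X.root.has c = true
  root_not : ¬ C.Inside 0
  four : X.root ≠ .five → ∀ p, ¬ C.Inside p → ∃ c, p ∉ C.K c
  three : X.root = .quad → ∀ p, ¬ C.Inside p → (cols C p).card ≠ 3
  reg : ∀ j s s' c, regOk (X.pt j) s s' = true →
    (X.root = .triple ∧ 3 ≤ c.val) ∨ (X.root = .quad ∧ c.val = 4) →
    SomeNear C X 0 j s' c → AllNear C X 0 j s c
  regPair : X.root = .quad → ∀ j s s' c, regOk (X.pt j) s s' = true → c.val ≠ 4 →
    ¬ SomeNear C X 0 j s 4 → SomeNear C X 0 j s' c → AllNear C X 0 j s c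
  given : ∀ k < X.given.length, ∃ l ∈ X.given.getD k [], Holds (Val C X τ) l

variable {C X τ}

lemma val_code (kind : ℕ) (hk : kind < 16) (c : Fin 5) (s : Bool) (n : Fin 7) (j : ℕ) :
    code kind c s n j % 16 = kind ∧ code kind c s n j / 16 % 8 % 5 = c.val ∧
      Nat.beq (code kind c s n j / 128 % 2) 1 = s ∧ code kind c s n j / 256 % 8 % 7 = n.val ∧
      code kind c s n j / 2048 = j := by
  have := c.isLt
  have := n.isLt
  have e : code kind c s n j / 128 % 2 = bif s then 1 else 0 := by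
    cases s <;> simp only [code, cond_true, cond_false] <;> omega
  refine ⟨?_, ?_, by rw [e]; cases s <;> rfl, ?_, ?_⟩ <;>
    cases s <;> simp only [code, cond_true, cond_false] <;> omega

section decode

variable (n : Fin 7) (j : ℕ) (s : Bool) (c : Fin 5)

lemma val_vS : Val C X τ (vS n j s c) ↔ AtSample C X τ n j s c := by
  obtain ⟨a, b, d, e, f⟩ := val_code 0 (by norm_num) c s n j; simp [Val, vS, a, b, d, e, f]

lemma val_vA : Val C X τ (vA n j s c) ↔ AllNear C X n j s c := by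
  obtain ⟨a, b, d, e, f⟩ := val_code 1 (by norm_num) c s n j; simp [Val, vA, a, b, d, e, f]

lemma val_vE : Val C X τ (vE n j s c) ↔ SomeNear C X n j s c := by
  obtain ⟨a, b, d, e, f⟩ := val_code 2 (by norm_num) c s n j; simp [Val, vE, a, b, d, e, f]

lemma val_vM : Val C X τ (vM n c) ↔ cen n ∈ C.K c := by
  obtain ⟨a, b, d, e, f⟩ := val_code 3 (by norm_num) c false n 0; simp [Val, vM, a, b, e]

lemma val_vU : Val C X τ (vU n c) ↔ cen n ∈ C.U c := by
  obtain ⟨a, b, d, e, f⟩ := val_code 4 (by norm_num) c false n 0; simp [Val, vU, a, b, e]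

lemma val_vN : Val C X τ (vN n) ↔ ¬ C.Inside (cen n) ∧ 3 ≤ (cols C (cen n)).card := by
  obtain ⟨a, b, d, e, f⟩ := val_code 5 (by norm_num) 0 false n 0; simp [Val, vN, a, e]

lemma val_vW : Val C X τ (vW n) ↔ C.Inside (cen n) := by
  obtain ⟨a, b, d, e, f⟩ := val_code 6 (by norm_num) 0 false n 0; simp [Val, vW, a, e]

lemma val_vP : Val C X τ (vP n) ↔ ¬ C.Inside (cen n) ∧ (cols C (cen n)).card ≤ 2 := by
  obtain ⟨a, b, d, e, f⟩ := val_code 7 (by norm_num) 0 false n 0; simp [Val, vP, a, e]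

lemma val_vQ : Val C X τ (vQ n) ↔ ¬ C.Inside (cen n) ∧ (cols C (cen n)).card = 4 := by
  obtain ⟨a, b, d, e, f⟩ := val_code 8 (by norm_num) 0 false n 0; simp [Val, vQ, a, e]

lemma val_vT : Val C X τ (vT n) ↔ ¬ C.Inside (cen n) ∧ (cols C (cen n)).card = 3 := by
  obtain ⟨a, b, d, e, f⟩ := val_code 9 (by norm_num) 0 false n 0; simp [Val, vT, a, e]

end decode

lemma holds_pos {V : ℕ → Prop} {v : ℕ} : Holds V (pos v) ↔ V v := by
  unfold Holds pos
  rw [if_pos (by omega), show 2 * v / 2 = v by omega]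

lemma holds_neg {V : ℕ → Prop} {v : ℕ} : Holds V (neg v) ↔ ¬ V v := by
  unfold Holds neg
  rw [if_neg (by omega), show (2 * v + 1) / 2 = v by omega]

lemma card_cols_le_four (hy : Hyp C X τ) (h5 : X.root ≠ .five) {p : ℂ} (hp : ¬ C.Inside p) :
    (cols C p).card ≤ 4 := by
  obtain ⟨c, hc⟩ := hy.four h5 p hp
  have : (cols C p).card < Finset.univ.card :=
    Finset.card_lt_card (Finset.ssubset_univ_iff.2 fun e => hc (mem_cols.1 (e ▸ Finset.mem_univ c)))
  simp only [Finset.card_univ, Fintype.card_fin] at this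
  omega

lemma two_le_card_cols {p : ℂ} (hp : ¬ C.Inside p) : 2 ≤ (cols C p).card := by
  obtain ⟨i, hi⟩ := C.exists_mem_K p
  obtain ⟨j, hj, hjK⟩ := C.exists_other hp i
  exact Finset.one_lt_card.2 ⟨j, mem_cols.2 hjK, i, mem_cols.2 hi, hj⟩

/-- A point at distance one from a point of colour `x` is not of colour `x` only. -/
lemma false_of_single {w h : ℂ} {x : Fin 5} (hd : dist w h = 1) (hh : h ∈ C.K x)
    (hw : ∀ c, c ≠ x → w ∉ C.K c) : False := by
  by_cases hi : C.Inside w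
  · obtain ⟨c, hc⟩ := hi
    by_cases hcx : c = x
    · exact C.dist_ne_one (hcx ▸ hc) hh hd
    · exact hw c hcx (C.subset_K c hc)
  · obtain ⟨j, hj, hjK⟩ := C.exists_other hi x
    exact hw j hj hjK

lemma sample_eventually (hg : Good C X τ) {n : Fin 7} {j : ℕ} {s : Bool} {c : Fin 5}
    (h : AtSample C X τ n j s c) :
    ∀ᶠ u in 𝓝 (dir s * τ s), orbit (cen n) (X.pt j).val u ∈ C.K c := by
  have ht : Tendsto (fun u => dir s * u) (𝓝 (dir s * τ s)) (𝓝 (τ s)) := by
    have := (continuous_const_mul (dir s)).tendsto (dir s * τ s)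
    rwa [← mul_assoc, dir_mul_self, one_mul] at this
  filter_upwards [ht.eventually (hg.stable n j s c)] with u hu
  have := hu.2 h
  rwa [path, ← mul_assoc, dir_mul_self, one_mul] at this

lemma sample_line (hg : Good C X τ) {n : Fin 7} {j j' : ℕ} {s : Bool} {c : Fin 5}
    (hl : (X.pt j).sameLine (X.pt j') = true) (h : AtSample C X τ n j' s c) :
    (∀ᶠ u in 𝓝 (dir s * τ s), orbit (cen n) (X.pt j).val u ∈ C.K c) ∨
      ∀ᶠ u in 𝓝 (dir s * τ s), orbit (cen n) (-(X.pt j).val) u ∈ C.K c := by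
  have h' := sample_eventually hg h
  simp only [Pt.sameLine, Bool.or_eq_true, Pt.same_iff] at hl
  rcases hl with e | e <;> rw [e] at h'
  · exact Or.inl h'
  · rw [Pt.val_neg] at h'; exact Or.inr h'

lemma limit_mem {n : Fin 7} {j : ℕ} {s : Bool} {c : Fin 5} (h : SomeNear C X n j s c) :
    cen n + (X.pt j).val ∈ C.K c := by
  have hf : ∃ᶠ u in map (fun t => dir s * t) (𝓝[>] 0), orbit (cen n) (X.pt j).val u ∈ C.K c :=
    frequently_map.2 (h.mono fun t ht => ht.self_of_nhds)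
  exact C.mem_K_of_frequently (tendsto_dir s) hf

lemma all_or_some {n : Fin 7} {j : ℕ} {s : Bool} {c : Fin 5}
    (h : ∀ d, d ≠ c → ¬ SomeNear C X n j s d) : AllNear C X n j s c := by
  have h' : ∀ᶠ t in 𝓝[>] (0 : ℝ), ∀ d, d ≠ c → ¬ ∀ᶠ u in 𝓝 t, path X n j s u ∈ C.K d := by
    refine eventually_all.2 fun d => ?_
    by_cases hd : d = c
    · exact Eventually.of_forall fun _ hne => absurd hd hne
    · exact (not_frequently.1 (h d hd)).mono fun _ ht _ => ht
  obtain ⟨r, hr, hsub⟩ := mem_nhdsGT_iff_exists_Ioo_subset.1 h'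
  refine mem_nhdsGT_iff_exists_Ioo_subset.2 ⟨r, hr, fun t ht => ?_⟩
  by_contra hn
  have hcont : Continuous (path X n j s) :=
    (continuous_orbit _ _).comp (continuous_const_mul _)
  obtain ⟨t', ⟨ht', hn'⟩, hst⟩ := Cover.exists_stable (fun d : Fin 5 => path X n j s ⁻¹' C.K d)
    (fun d => (C.isClosed_K d).preimage hcont)
    (isOpen_Ioo.inter ((C.isClosed_K c).preimage hcont).isOpen_compl) ⟨t, ht, hn⟩
  obtain ⟨d, hd⟩ := C.exists_mem_K (path X n j s t')
  exact hsub ht' d (fun e => hn' (e ▸ hd)) ((hst d).mono fun u hu => hu.2 hd)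

lemma pre_kind {v : Fin 7 → ℕ} {i : Fin 7} {r : Root} {m : ℕ}
    (hval : ∀ n, Val C X τ (v n) ↔ ¬ C.Inside (cen n) ∧ (cols C (cen n)).card = m)
    (hroot : X.root = r → (cols C 0).card = m) (hy : Hyp C X τ) (hp : X.preOk r i = true)
    (hn : ∀ l ∈ pre v i, ¬ Holds (Val C X τ) l) :
    ¬ C.Inside (cen i) ∧ (cols C (cen i)).card = m := by
  by_cases hi : i = 0
  · subst hi
    simp [Ctx.preOk] at hp
    rw [cen_zero]
    exact ⟨hy.root_not, hroot hp⟩
  · have hi' : i.val ≠ 0 := fun e => hi (Fin.ext e)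
    simp [pre, hi', holds_neg, hval] at hn
    exact ⟨hn.1, hn.2⟩

lemma quad_at (hy : Hyp C X τ) {i : Fin 7} (hp : X.preOk .quad i = true)
    (hn : ∀ l ∈ pre vQ i, ¬ Holds (Val C X τ) l) :
    ¬ C.Inside (cen i) ∧ (cols C (cen i)).card = 4 := by
  refine pre_kind (fun n => val_vQ n) (fun e => ?_) hy hp hn
  rw [show cols C 0 = {0, 1, 2, 3} by
    ext c; rw [mem_cols, hy.root_K, e]; revert c; decide]
  rfl

lemma triple_at (hy : Hyp C X τ) {i : Fin 7} (hp : X.preOk .triple i = true)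
    (hn : ∀ l ∈ pre vT i, ¬ Holds (Val C X τ) l) :
    ¬ C.Inside (cen i) ∧ (cols C (cen i)).card = 3 := by
  refine pre_kind (fun n => val_vT n) (fun e => ?_) hy hp hn
  rw [show cols C 0 = {0, 1, 2} by
    ext c; rw [mem_cols, hy.root_K, e]; revert c; decide]
  rfl

lemma cols_eq_compl {p : ℂ} {l : Finset (Fin 5)} (hcard : (cols C p).card + l.card = 5)
    (hl : ∀ c ∈ l, p ∉ C.K c) : ∀ c, p ∈ C.K c ↔ c ∉ l := by
  intro c
  refine ⟨fun hc hcl => hl c hcl hc, fun hc => ?_⟩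
  have hsub : cols C p ⊆ lᶜ := fun d hd => Finset.mem_compl.2 fun hdl => hl d hdl (mem_cols.1 hd)
  have : cols C p = lᶜ := Finset.eq_of_subset_of_card_le hsub (by
    rw [Finset.card_compl, Fintype.card_fin]; omega)
  exact mem_cols.1 (this ▸ Finset.mem_compl.2 hc)

lemma dist_path (i : Fin 7) {j : ℕ} (s : Bool) (t : ℝ) (hj : (X.pt j).unit = true) :
    dist (path X i j s t) (cen i) = 1 := by
  rw [path, dist_orbit_centre, Pt.norm_of_unit hj]

end Vale.Agent.P032.Cert
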